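import Vale.Agent.P318.H790.Pairs
import Vale.Agent.P318.S.Mid

/-!
# P318 line S: the total pair count `quadA`
-/

set_option synthInstance.maxSize 1000
set_option linter.unusedSectionVars false

namespace Vale.Agent.P318.H790

open Finset Vale.Agent.P318.S
open scoped BigOperators

/-- Every family satisfies the character bound with constant one. -/
lemma charBd_one {Y ι : Type*} [AddCommGroup Y] [Fintype ι] [Nonempty ι] (r : ι → Y) :
    CharBd r 1 := by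
  intro f _
  refine (Finset.abs_expect_le _ _).trans ?_
  rw [← Fintype.expect_const (ι := ι) (1 : ℝ)]
  exact Finset.expect_le_expect fun c _ => (abs_sgn' _).le

lemma expect_prod {α β : Type*} [Fintype α] [Fintype β] (f : α × β → ℝ) :
    𝔼 x : α × β, f x = 𝔼 a : α, 𝔼 b : β, f (a, b) := by
  rw [← univ_product_univ, Finset.expect_product]

lemma card_ne_zero_sub {F : Type*} [Field F] [Fintype F] [DecidableEq F] {q : ℕ}
    (hq : Fintype.card F = q) : (Fintype.card {u : F // u ≠ 0} : ℝ) = q - 1 := by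
  have h : Fintype.card {u : F // u ≠ 0} = Fintype.card F - 1 := Set.card_ne_eq (0 : F)
  have hpos : 1 ≤ Fintype.card F := Fintype.card_pos
  rw [h, Nat.cast_sub hpos, hq, Nat.cast_one]

section

variable {F V ι Z K : Type*} [Field F] [Fintype F] [DecidableEq F] [CharP F 2]
  [AddCommGroup V] [Module F V] [Fintype V] [DecidableEq V] [Fintype ι] [Nonempty ι]
  [Fintype Z] [DecidableEq Z] [Fintype K] [DecidableEq K]

lemma mix0 {D : ℕ} (hD : 1 ≤ D) (r : ι → Fin 3 → V) {lam : ℝ} (hlam : 0 ≤ lam)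
    (hb : CharBd r lam) :
    PairMix (fun (x : ι × (Fin 3 → V) × (Fin (D + 1) → Comp K → F)) (u : F) =>
      S.pos0 r x.2.1 x.1 x.2.2 u) lam :=
  pairMix_t0 (F := F) (E := Comp K → F) hD hlam hb

/-- One READ: any family of points and coefficient vectors with uniform points. -/
lemma mixR {D : ℕ} (hD : 1 ≤ D) (r : ι → Fin 3 → V) {lam : ℝ} (hlam : 0 ≤ lam)
    (hb : CharBd r lam) {Ω : Type*} [Fintype Ω] (yv : Ω → Fin 3 → V)
    (hyv : ∀ g : (Fin 3 → V) → ℝ, 𝔼 ω, g (yv ω) = 𝔼 y, g y) (cst : Ω → Comp K → F) :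
    PairMix (fun (x : Ω × RSeed ι F K D) (p : Fin 2 × {u : F // u ≠ 0}) =>
      S.posR r (yv x.1) (cst x.1) x.2 p) lam :=
  pairMix_read (ρ := Comp K) hD hlam hb yv hyv cst

/-- Two READs. -/
lemma mixRR {D : ℕ} (hD : 1 ≤ D) (r : ι → Fin 3 → V) {lam : ℝ} (hlam : 0 ≤ lam)
    (hb : CharBd r lam) {Ω Θ : Type*} [Fintype Ω] [Fintype Θ] [Nonempty Θ]
    (yv yv' : Ω → Fin 3 → V) (z : Θ → Fin 3 → V)
    (hj : ∀ K : (Fin 3 → V) → (Fin 3 → V) → ℝ,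
      𝔼 ω, K (yv ω) (yv' ω) = 𝔼 y, 𝔼 θ, K y (y + z θ)) (cst cst' : Ω → Comp K → F) :
    PairMix (fun (x : Ω × RSeed ι F K D × RSeed ι F K D)
      (p : (Fin 2 × {u : F // u ≠ 0}) ⊕ (Fin 2 × {u : F // u ≠ 0})) =>
      S.posRR r (yv x.1) (yv' x.1) (cst x.1) (cst' x.1) x.2.1 x.2.2 p) lam :=
  pairMix_read2 (ρ := Comp K) hD hlam hb yv yv' z hj cst cst'

lemma cut0 {q D : ℕ} (hq : Fintype.card F = q) (hD : 1 ≤ D) (r : ι → Fin 3 → V)
    (σ : (Fin 3 → V) → (Comp K → F) → ZMod 2) :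
    (∀ lam : ℝ, 0 ≤ lam → CharBd r lam →
      (q : ℝ) * (q - 1) / 4 * (1 - mean σ ^ 2 - lam) ≤ Q0 D r σ) ∧
    (Bal σ → Q0 D r σ = (q : ℝ) * (q - 1) / 4) := by
  have e : Q0 D r σ = 𝔼 x : ι × (Fin 3 → V) × (Fin (D + 1) → Comp K → F),
      cutv fun u : F => σ (S.pos0 r x.2.1 x.1 x.2.2 u).1 (S.pos0 r x.2.1 x.1 x.2.2 u).2 := by
    rw [expect_prod]
    simp_rw [expect_prod]
    rfl
  refine ⟨fun lam hlam hb => ?_, fun hσ => ?_⟩
  · have h := (mix0 hD r hlam hb).cut_ge hlam σ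
    rw [e, ← hq]
    exact h
  · have h := (mix0 hD r zero_le_one (charBd_one r)).cut_eq σ hσ
    rw [e, ← hq]
    exact h

lemma cutR {q D : ℕ} (hq : Fintype.card F = q) (hD : 1 ≤ D) (r : ι → Fin 3 → V)
    (σ : (Fin 3 → V) → (Comp K → F) → ZMod 2) {Ω : Type*} [Fintype Ω] [Nonempty Ω]
    (yv : Ω → Fin 3 → V) (hyv : ∀ g : (Fin 3 → V) → ℝ, 𝔼 ω, g (yv ω) = 𝔼 y, g y)
    (cst : Ω → Comp K → F) :
    (∀ lam : ℝ, 0 ≤ lam → CharBd r lam →
      (2 * ((q : ℝ) - 1)) * (2 * (q - 1) - 1) / 4 * (1 - mean σ ^ 2 - lam) ≤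
        𝔼 x : Ω, 𝔼 ω : RSeed ι F K D, qd σ (S.posR r (yv x) (cst x) ω)) ∧
    (Bal σ → 𝔼 x : Ω, 𝔼 ω : RSeed ι F K D, qd σ (S.posR r (yv x) (cst x) ω) =
      (2 * ((q : ℝ) - 1)) * (2 * (q - 1) - 1) / 4) := by
  have hc : (Fintype.card (Fin 2 × {u : F // u ≠ 0}) : ℝ) = 2 * ((q : ℝ) - 1) := by
    rw [Fintype.card_prod, Fintype.card_fin, Nat.cast_mul, card_ne_zero_sub hq, Nat.cast_ofNat]
  have e : 𝔼 x : Ω, 𝔼 ω : RSeed ι F K D, qd σ (S.posR r (yv x) (cst x) ω) =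
      𝔼 x : Ω × RSeed ι F K D, cutv fun p : Fin 2 × {u : F // u ≠ 0} =>
        σ (S.posR r (yv x.1) (cst x.1) x.2 p).1 (S.posR r (yv x.1) (cst x.1) x.2 p).2 := by
    rw [expect_prod]
    rfl
  refine ⟨fun lam hlam hb => ?_, fun hσ => ?_⟩
  · have h := (mixR hD r hlam hb yv hyv cst).cut_ge hlam σ
    rw [e]
    rw [hc] at h
    exact h
  · have h := (mixR hD r zero_le_one (charBd_one r) yv hyv cst).cut_eq σ hσ
    rw [e]
    rw [hc] at h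
    exact h

lemma cutRR {q D : ℕ} (hq : Fintype.card F = q) (hD : 1 ≤ D) (r : ι → Fin 3 → V)
    (σ : (Fin 3 → V) → (Comp K → F) → ZMod 2) {Ω Θ : Type*} [Fintype Ω] [Nonempty Ω] [Fintype Θ]
    [Nonempty Θ] (yv yv' : Ω → Fin 3 → V) (z : Θ → Fin 3 → V)
    (hj : ∀ G : (Fin 3 → V) → (Fin 3 → V) → ℝ,
      𝔼 ω, G (yv ω) (yv' ω) = 𝔼 y, 𝔼 θ, G y (y + z θ)) (cst cst' : Ω → Comp K → F) :
    (∀ lam : ℝ, 0 ≤ lam → CharBd r lam →
      (4 * ((q : ℝ) - 1)) * (4 * (q - 1) - 1) / 4 * (1 - mean σ ^ 2 - lam) ≤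
        𝔼 x : Ω, 𝔼 ω : RSeed ι F K D, 𝔼 ω' : RSeed ι F K D,
          qd σ (posRR r (yv x) (yv' x) (cst x) (cst' x) ω ω')) ∧
    (Bal σ → 𝔼 x : Ω, 𝔼 ω : RSeed ι F K D, 𝔼 ω' : RSeed ι F K D,
          qd σ (posRR r (yv x) (yv' x) (cst x) (cst' x) ω ω') =
      (4 * ((q : ℝ) - 1)) * (4 * (q - 1) - 1) / 4) := by
  have hc : (Fintype.card ((Fin 2 × {u : F // u ≠ 0}) ⊕ (Fin 2 × {u : F // u ≠ 0})) : ℝ) =
      4 * ((q : ℝ) - 1) := by
    rw [Fintype.card_sum, Fintype.card_prod, Fintype.card_fin, Nat.cast_add, Nat.cast_mul,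
      card_ne_zero_sub hq, Nat.cast_ofNat]
    ring
  have e : 𝔼 x : Ω, 𝔼 ω : RSeed ι F K D, 𝔼 ω' : RSeed ι F K D,
          qd σ (posRR r (yv x) (yv' x) (cst x) (cst' x) ω ω') =
      𝔼 x : Ω × RSeed ι F K D × RSeed ι F K D,
        cutv fun p : (Fin 2 × {u : F // u ≠ 0}) ⊕ (Fin 2 × {u : F // u ≠ 0}) =>
        σ (posRR r (yv x.1) (yv' x.1) (cst x.1) (cst' x.1) x.2.1 x.2.2 p).1
          (posRR r (yv x.1) (yv' x.1) (cst x.1) (cst' x.1) x.2.1 x.2.2 p).2 := by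
    rw [expect_prod]
    refine Finset.expect_congr rfl fun x _ => ?_
    rw [expect_prod (α := RSeed ι F K D) (β := RSeed ι F K D)]
    rfl
  refine ⟨fun lam hlam hb => ?_, fun hσ => ?_⟩
  · have h := (mixRR hD r hlam hb yv yv' z hj cst cst').cut_ge hlam σ
    rw [e]
    rw [hc] at h
    exact h
  · have h := (mixRR hD r zero_le_one (charBd_one r) yv yv' z hj cst cst').cut_eq σ hσ
    rw [e]
    rw [hc] at h
    exact h

/-- All the pair counts, lower bounds and exact values. -/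
lemma all_counts {q D : ℕ} (hq : Fintype.card F = q) (hD : 1 ≤ D) (r : ι → Fin 3 → V)
    (del : Z → V → F) (zf : K → V → F)
    (sys : Finset (Z × Z × Z)) (bet : Z × Z × Z → F)
    (σ : (Fin 3 → V) → (Comp K → F) → ZMod 2) :
    (∀ lam : ℝ, 0 ≤ lam → CharBd r lam →
      (q : ℝ) * (q - 1) / 4 * (1 - mean σ ^ 2 - lam) ≤ Q0 D r σ ∧
      (2 * ((q : ℝ) - 1)) * (2 * (q - 1) - 1) / 4 * (1 - mean σ ^ 2 - lam) ≤ Q1 D r σ ∧
      (2 * ((q : ℝ) - 1)) * (2 * (q - 1) - 1) / 4 * (1 - mean σ ^ 2 - lam) ≤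
        Q2 D r del zf sys bet σ ∧
      (∀ b, (4 * ((q : ℝ) - 1)) * (4 * (q - 1) - 1) / 4 * (1 - mean σ ^ 2 - lam) ≤
        Q3 D r b σ) ∧
      (2 * ((q : ℝ) - 1)) * (2 * (q - 1) - 1) / 4 * (1 - mean σ ^ 2 - lam) ≤ Q4 D r σ) ∧
    (Bal σ →
      Q0 D r σ = (q : ℝ) * (q - 1) / 4 ∧
      Q1 D r σ = (2 * ((q : ℝ) - 1)) * (2 * (q - 1) - 1) / 4 ∧
      Q2 D r del zf sys bet σ = (2 * ((q : ℝ) - 1)) * (2 * (q - 1) - 1) / 4 ∧
      (∀ b, Q3 D r b σ = (4 * ((q : ℝ) - 1)) * (4 * (q - 1) - 1) / 4) ∧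
      Q4 D r σ = (2 * ((q : ℝ) - 1)) * (2 * (q - 1) - 1) / 4) := by
  have h0 := cut0 hq hD r σ
  -- T1
  have h1 := cutR hq hD r σ (Ω := (Fin 3 → V) × (Fin 2 → F) × (Fin 2 → F)) (fun x => x.1)
    (fun g => by
      rw [expect_prod]
      exact Finset.expect_congr rfl fun y _ => Fintype.expect_const (g y))
    (fun x => cst1 x.2.1 x.2.2)
  have e1 : 𝔼 x : (Fin 3 → V) × (Fin 2 → F) × (Fin 2 → F), 𝔼 ω : RSeed ι F K D,
      qd σ (S.posR r x.1 (cst1 x.2.1 x.2.2) ω) = Q1 D r σ := by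
    rw [expect_prod]
    simp_rw [expect_prod (α := Fin 2 → F) (β := Fin 2 → F)]
    rfl
  rw [e1] at h1
  -- T2
  have hyv : ∀ g : (Fin 3 → V) → ℝ, 𝔼 ω : (Fin 3 → V) × F, g ω.1 = 𝔼 y, g y := fun g => by
      rw [expect_prod]
      exact Finset.expect_congr rfl fun y _ => Fintype.expect_const (g y)
  have h2 := cutR hq hD r σ (Ω := (Fin 3 → V) × F) (fun x => x.1) hyv
    (fun x => cst2 del zf sys bet x.2 x.1)
  have e2 : 𝔼 x : (Fin 3 → V) × F, 𝔼 ω : RSeed ι F K D,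
      qd σ (S.posR r x.1 (cst2 del zf sys bet x.2 x.1) ω) = Q2 D r del zf sys bet σ := by
    rw [expect_prod]
    rfl
  rw [e2] at h2
  -- T4
  have h4 := cutR hq hD r σ (Ω := (Fin 3 → V) × F) (fun x => x.1) hyv
    (fun x => cstE x.2 cOne)
  have e4 : 𝔼 x : (Fin 3 → V) × F, 𝔼 ω : RSeed ι F K D,
      qd σ (S.posR r x.1 (cstE x.2 cOne) ω) = Q4 D r σ := by
    rw [expect_prod]
    rfl
  rw [e4] at h4
  -- T3
  have h3 : ∀ b : Fin 3, _ := fun b => cutRR hq hD r σ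
    (Ω := (Fin 3 → V) × (Fin 3 → V) × F) (fun x => x.1) (fun x => sh b x.1 x.2.1)
    (fun x : Fin 3 → V => Function.update x b 0)
    (fun G => by
      rw [expect_prod]
      refine Finset.expect_congr rfl fun y _ => ?_
      rw [expect_prod]
      exact Finset.expect_congr rfl fun x _ => Fintype.expect_const (G y (y + Function.update x b 0)))
    (fun x => cstE x.2.2 (cF b)) (fun x => cstE x.2.2 (cF b))
  have e3 : ∀ b : Fin 3, 𝔼 x : (Fin 3 → V) × (Fin 3 → V) × F, 𝔼 ω : RSeed ι F K D,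
      𝔼 ω' : RSeed ι F K D,
      qd σ (posRR r x.1 (sh b x.1 x.2.1) (cstE x.2.2 (cF b)) (cstE x.2.2 (cF b)) ω ω') =
        Q3 D r b σ := by
    intro b
    rw [expect_prod]
    simp_rw [expect_prod (α := Fin 3 → V) (β := F)]
    rfl
  refine ⟨fun lam hlam hb => ⟨h0.1 lam hlam hb, h1.1 lam hlam hb, h2.1 lam hlam hb,
    fun b => ?_, h4.1 lam hlam hb⟩, fun hσ => ⟨h0.2 hσ, h1.2 hσ, h2.2 hσ, fun b => ?_, h4.2 hσ⟩⟩
  · rw [← e3 b]
    exact (h3 b).1 lam hlam hb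
  · rw [← e3 b]
    exact (h3 b).2 hσ

/-- `quadA` is at least `(wA / 4) (1 - mean² - lam)`. -/
theorem quadA_ge {q D : ℕ} (hq : Fintype.card F = q) (hD : 1 ≤ D) (r : ι → Fin 3 → V) {lam : ℝ}
    (hlam : 0 ≤ lam) (hb : CharBd r lam) (del : Z → V → F) (zf : K → V → F)
    (sys : Finset (Z × Z × Z)) (bet : Z × Z × Z → F) (m : Fin 5 → ℕ)
    (σ : (Fin 3 → V) → (Comp K → F) → ZMod 2) :
    wA q m / 4 * (1 - mean σ ^ 2 - lam) ≤ quadA D r del zf sys bet m σ := by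
  obtain ⟨h0, h1, h2, h3, h4⟩ := (all_counts hq hD r del zf sys bet σ).1 lam hlam hb
  have hm : ∀ j, (0 : ℝ) ≤ m j := fun j => Nat.cast_nonneg _
  have a0 := mul_le_mul_of_nonneg_left h0 (hm 0)
  have a1 := mul_le_mul_of_nonneg_left h1 (hm 1)
  have a2 := mul_le_mul_of_nonneg_left h2 (hm 2)
  have a4 := mul_le_mul_of_nonneg_left h4 (hm 4)
  have s3 : (3 : ℝ) * ((4 * ((q : ℝ) - 1)) * (4 * (q - 1) - 1) / 4 * (1 - mean σ ^ 2 - lam)) ≤
      ∑ b, Q3 D r b σ := by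
    calc (3 : ℝ) * ((4 * ((q : ℝ) - 1)) * (4 * (q - 1) - 1) / 4 * (1 - mean σ ^ 2 - lam)) =
        ∑ _b : Fin 3, ((4 * ((q : ℝ) - 1)) * (4 * (q - 1) - 1) / 4 *
          (1 - mean σ ^ 2 - lam)) := by
          rw [Finset.sum_const, Finset.card_univ, Fintype.card_fin, nsmul_eq_mul, Nat.cast_ofNat]
      _ ≤ _ := Finset.sum_le_sum fun b _ => h3 b
  have a3 := mul_le_mul_of_nonneg_left s3 (hm 3)
  unfold quadA wA
  linarith

/-- `quadA` of a table which is balanced in every fibre. -/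
theorem quadA_bal {q D : ℕ} (hq : Fintype.card F = q) (hD : 1 ≤ D) (r : ι → Fin 3 → V)
    (del : Z → V → F) (zf : K → V → F)
    (sys : Finset (Z × Z × Z)) (bet : Z × Z × Z → F) (m : Fin 5 → ℕ)
    (σ : (Fin 3 → V) → (Comp K → F) → ZMod 2) (hσ : Bal σ) :
    quadA D r del zf sys bet m σ = wA q m / 4 := by
  obtain ⟨h0, h1, h2, h3, h4⟩ := (all_counts hq hD r del zf sys bet σ).2 hσ
  unfold quadA wA
  rw [h0, h1, h2, h4]
  simp_rw [h3]
  rw [Finset.sum_const, Finset.card_univ, Fintype.card_fin, nsmul_eq_mul, Nat.cast_ofNat]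
  ring

end

end Vale.Agent.P318.H790
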