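import Vale.Agent.P318.S.Defs

/-!
# P318 line S: correlations along a spread family, and independence of curve values

`Y` is a finite abelian group in which `y + y = 0`.
-/

namespace Vale.Agent.P318.H790

open Finset Vale.Agent.P318.S
open scoped BigOperators

/-! ### expectations -/

section expect

variable {G H : Type*} [AddCommGroup G] [Fintype G] [AddCommGroup H] [Fintype H]

lemma expect_shift (f : G → ℝ) (a : G) : 𝔼 g : G, f (g + a) = 𝔼 g : G, f g :=
  Fintype.expect_equiv (Equiv.addRight a) _ _ fun _ => rfl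

lemma expect_shift' (f : G → ℝ) (a : G) : 𝔼 g : G, f (a + g) = 𝔼 g : G, f g :=
  Fintype.expect_equiv (Equiv.addLeft a) _ _ fun _ => rfl

lemma expect_surj (φ : G →+ H) (hφ : Function.Surjective φ) (f : H → ℝ) :
    𝔼 g : G, f (φ g) = 𝔼 h : H, f h := by
  have h1 : ∀ h : H, 𝔼 g : G, f (φ g + h) = 𝔼 g : G, f (φ g) := by
    intro h
    obtain ⟨a, ha⟩ := hφ h
    rw [← expect_shift (fun g => f (φ g)) a]
    refine Finset.expect_congr rfl fun g _ => ?_
    rw [map_add, ha]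
  have h2 : 𝔼 h : H, 𝔼 g : G, f (φ g + h) = 𝔼 g : G, f (φ g) := by
    simp_rw [h1]
    exact Fintype.expect_const _
  rw [← h2, Finset.expect_comm]
  have h3 : ∀ g : G, 𝔼 h : H, f (φ g + h) = 𝔼 h : H, f h := fun g => expect_shift' f (φ g)
  simp_rw [h3]
  exact Fintype.expect_const _

/-- Two jointly surjective additive maps give independent uniform values. -/
lemma expect_indep {E : Type*} [AddCommGroup E] [Fintype E] (φ ψ : G →+ E)
    (h : ∀ a b : E, ∃ g, φ g = a ∧ ψ g = b) (s t : E) (a b : E → ℝ) :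
    𝔼 g : G, a (s + φ g) * b (t + ψ g) = (𝔼 c : E, a c) * 𝔼 c : E, b c := by
  have h1 := expect_surj (φ.prod ψ) (fun x => by
    obtain ⟨g, hg⟩ := h x.1 x.2
    exact ⟨g, Prod.ext hg.1 hg.2⟩) (fun x : E × E => a (s + x.1) * b (t + x.2))
  have h2 : 𝔼 x : E × E, a (s + x.1) * b (t + x.2) = (𝔼 c : E, a c) * 𝔼 c : E, b c := by
    rw [← expect_shift' a s, ← expect_shift' b t, Fintype.expect_mul_expect]
    exact Finset.expect_product univ univ (fun x : E × E => a (s + x.1) * b (t + x.2))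
  rw [← h2, ← h1]
  rfl

end expect

/-! ### complex characters -/

/-- The family `v` is `lam`-spread in `Y`. -/
def Spread {Y ι : Type*} [AddCommGroup Y] [Fintype ι] (v : ι → Y) (lam : ℝ) : Prop :=
  ∀ χ : AddChar Y ℂ, χ ≠ 0 → ‖∑ i, χ (v i)‖ ≤ lam * Fintype.card ι

section core

variable {Y ι : Type*} [AddCommGroup Y] [Fintype Y] [Fintype ι]

/-- Fourier coefficient. -/
noncomputable def ft (f : Y → ℝ) (χ : AddChar Y ℂ) : ℂ := ∑ y, (f y : ℂ) * χ y

lemma char_conj (χ : AddChar Y ℂ) (y : Y) : (starRingEnd ℂ) (χ y) = χ (-y) := by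
  rw [AddChar.map_neg_eq_conj]

lemma sum_ft_mul (f : Y → ℝ) (v : ι → Y) :
    ∑ χ : AddChar Y ℂ, ft f χ * (starRingEnd ℂ) (ft f χ) * (∑ i, χ (v i)) =
      (Fintype.card Y : ℂ) * ∑ y, ∑ i, (f y : ℂ) * (f (y + v i) : ℂ) := by
  classical
  have h1 : ∀ χ : AddChar Y ℂ, ft f χ * (starRingEnd ℂ) (ft f χ) * (∑ i, χ (v i)) =
      ∑ y, ∑ z, ∑ i, (f y : ℂ) * (f z : ℂ) * χ (y - z + v i) := by
    intro χ
    have e1 : (starRingEnd ℂ) (ft f χ) = ∑ z, (f z : ℂ) * χ (-z) := by
      unfold ft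
      rw [map_sum]
      refine Finset.sum_congr rfl fun z _ => ?_
      rw [map_mul, Complex.conj_ofReal, char_conj]
    rw [e1]
    unfold ft
    rw [Finset.sum_mul_sum, Finset.sum_mul]
    refine Finset.sum_congr rfl fun y _ => ?_
    rw [Finset.sum_mul]
    refine Finset.sum_congr rfl fun z _ => ?_
    rw [Finset.mul_sum]
    refine Finset.sum_congr rfl fun i _ => ?_
    rw [sub_eq_add_neg, AddChar.map_add_eq_mul, AddChar.map_add_eq_mul]
    ring
  simp_rw [h1]
  rw [Finset.sum_comm]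
  have h2 : ∀ y z : Y, ∀ i : ι, ∑ χ : AddChar Y ℂ, (f y : ℂ) * (f z : ℂ) * χ (y - z + v i) =
      if z = y + v i then (Fintype.card Y : ℂ) * ((f y : ℂ) * (f z : ℂ)) else 0 := by
    intro y z i
    rw [← Finset.mul_sum, AddChar.sum_apply_eq_ite]
    have : (y - z + v i = 0) ↔ (z = y + v i) := by
      constructor
      · intro h
        have : z = z + (y - z + v i) := by rw [h, add_zero]
        rw [this]; abel
      · intro h; rw [h]; abel
    by_cases hz : z = y + v i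
    · rw [if_pos (this.2 hz), if_pos hz]; ring
    · rw [if_neg (fun h => hz (this.1 h)), if_neg hz, mul_zero]
  rw [Finset.mul_sum]
  refine Finset.sum_congr rfl fun y _ => ?_
  rw [Finset.sum_comm]
  have h3 : ∀ z : Y, ∑ χ : AddChar Y ℂ, ∑ i, (f y : ℂ) * (f z : ℂ) * χ (y - z + v i) =
      ∑ i, if z = y + v i then (Fintype.card Y : ℂ) * ((f y : ℂ) * (f z : ℂ)) else 0 := by
    intro z
    rw [Finset.sum_comm]
    exact Finset.sum_congr rfl fun i _ => h2 y z i
  simp_rw [h3]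
  rw [Finset.sum_comm, Finset.mul_sum]
  refine Finset.sum_congr rfl fun i _ => ?_
  rw [Finset.sum_ite_eq' Finset.univ (y + v i), if_pos (Finset.mem_univ _)]

lemma parseval (f : Y → ℝ) :
    ∑ χ : AddChar Y ℂ, ‖ft f χ‖ ^ 2 = (Fintype.card Y : ℝ) * ∑ y, f y ^ 2 := by
  classical
  have h := sum_ft_mul (ι := Unit) f (fun _ => (0 : Y))
  simp only [Finset.univ_unique, Finset.sum_singleton, AddChar.map_zero_eq_one, mul_one,
    add_zero] at h
  have h1 : ∀ χ : AddChar Y ℂ, ft f χ * (starRingEnd ℂ) (ft f χ) = ((‖ft f χ‖ ^ 2 : ℝ) : ℂ) := by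
    intro χ
    rw [Complex.mul_conj, Complex.normSq_eq_norm_sq]
  simp_rw [h1] at h
  have h2 : ((∑ χ : AddChar Y ℂ, ‖ft f χ‖ ^ 2 : ℝ) : ℂ) =
      (((Fintype.card Y : ℝ) * ∑ y, f y ^ 2 : ℝ) : ℂ) := by
    have h3 : ((∑ χ : AddChar Y ℂ, ‖ft f χ‖ ^ 2 : ℝ) : ℂ) =
        ∑ χ : AddChar Y ℂ, ((‖ft f χ‖ ^ 2 : ℝ) : ℂ) := Complex.ofReal_sum _ _
    rw [h3, h]
    push_cast
    congr 1
    refine Finset.sum_congr rfl fun y _ => ?_
    ring
  exact_mod_cast h2

lemma ft_zero (f : Y → ℝ) : ft f 0 = ((∑ y, f y : ℝ) : ℂ) := by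
  unfold ft
  simp

/-- Core estimate: correlations along a spread family of differences. -/
theorem core (f : Y → ℝ) (v : ι → Y) {lam : ℝ} (hlam : 0 ≤ lam) (hv : Spread v lam) :
    |(Fintype.card Y : ℝ) * (∑ y, ∑ i, f y * f (y + v i)) -
        (Fintype.card ι : ℝ) * (∑ y, f y) ^ 2| ≤
      lam * Fintype.card ι * ((Fintype.card Y : ℝ) * ∑ y, f y ^ 2) := by
  classical
  have h := sum_ft_mul f v
  rw [← Finset.add_sum_erase Finset.univ _ (Finset.mem_univ (0 : AddChar Y ℂ))] at h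
  have h0 : ft f 0 * (starRingEnd ℂ) (ft f 0) * (∑ i, (0 : AddChar Y ℂ) (v i)) =
      (((Fintype.card ι : ℝ) * (∑ y, f y) ^ 2 : ℝ) : ℂ) := by
    rw [ft_zero, Complex.conj_ofReal]
    simp only [AddChar.zero_apply, Finset.sum_const, Finset.card_univ, nsmul_eq_mul, mul_one]
    push_cast
    ring
  rw [h0] at h
  have h1 : (((Fintype.card Y : ℝ) * (∑ y, ∑ i, f y * f (y + v i)) -
        (Fintype.card ι : ℝ) * (∑ y, f y) ^ 2 : ℝ) : ℂ) =
      ∑ χ ∈ Finset.univ.erase (0 : AddChar Y ℂ),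
        ft f χ * (starRingEnd ℂ) (ft f χ) * (∑ i, χ (v i)) := by
    have : ((Fintype.card Y : ℝ) * (∑ y, ∑ i, f y * f (y + v i)) : ℝ) =
      ((Fintype.card Y : ℂ) * ∑ y, ∑ i, (f y : ℂ) * (f (y + v i) : ℂ)) := by
      push_cast; rfl
    rw [Complex.ofReal_sub, this, ← h]
    ring
  have h2 : |(Fintype.card Y : ℝ) * (∑ y, ∑ i, f y * f (y + v i)) -
        (Fintype.card ι : ℝ) * (∑ y, f y) ^ 2| =
      ‖∑ χ ∈ Finset.univ.erase (0 : AddChar Y ℂ),
        ft f χ * (starRingEnd ℂ) (ft f χ) * (∑ i, χ (v i))‖ := by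
    rw [← h1, Complex.norm_real, Real.norm_eq_abs]
  rw [h2]
  refine (norm_sum_le _ _).trans ?_
  have h3 : ∀ χ ∈ Finset.univ.erase (0 : AddChar Y ℂ),
      ‖ft f χ * (starRingEnd ℂ) (ft f χ) * (∑ i, χ (v i))‖ ≤
        ‖ft f χ‖ ^ 2 * (lam * Fintype.card ι) := by
    intro χ hχ
    rw [norm_mul, norm_mul, RCLike.norm_conj, ← pow_two]
    exact mul_le_mul_of_nonneg_left (hv χ (Finset.ne_of_mem_erase hχ)) (by positivity)
  refine (Finset.sum_le_sum h3).trans ?_
  rw [← Finset.sum_mul, mul_comm]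
  refine mul_le_mul_of_nonneg_left ?_ (by positivity)
  rw [← parseval f]
  exact Finset.sum_le_sum_of_subset_of_nonneg (Finset.erase_subset _ _)
    (fun _ _ _ => by positivity)

end core

/-! ### characters of order two -/

section two

variable {Y κ : Type*} [AddCommGroup Y] [Fintype Y] [Fintype κ]

lemma zmod2_cases (a : ZMod 2) : a = 0 ∨ a = 1 := by
  revert a; decide

lemma sgn_zero' : sgn 0 = 1 := by simp [sgn]

lemma sgn_one' : sgn 1 = -1 := by
  have : (1 : ZMod 2) ≠ 0 := by decide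
  simp [sgn, this]

lemma sgn_add' (a b : ZMod 2) : sgn (a + b) = sgn a * sgn b := by
  rcases zmod2_cases a with rfl | rfl <;> rcases zmod2_cases b with rfl | rfl
  · simp [sgn_zero']
  · simp [sgn_zero']
  · simp [sgn_zero']
  · have : (1 + 1 : ZMod 2) = 0 := by decide
    rw [this, sgn_zero', sgn_one']; norm_num

lemma sgn_sq' (a : ZMod 2) : sgn a * sgn a = 1 := by
  rw [← sgn_add', CharTwo.add_self_eq_zero, sgn_zero']

lemma abs_sgn' (a : ZMod 2) : |sgn a| = 1 := by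
  rcases zmod2_cases a with rfl | rfl
  · simp [sgn_zero']
  · simp [sgn_one']

lemma ind_eq' (a : ZMod 2) : ind a = (1 - sgn a) / 2 := by
  rcases zmod2_cases a with rfl | rfl
  · simp [sgn_zero', ind]
  · have : (1 : ZMod 2) ≠ 0 := by decide
    rw [sgn_one']; simp [ind, this]

omit [Fintype Y] in
/-- Every complex character of a group of exponent two is the sign of an additive functional. -/
lemma exists_hom (h2 : ∀ y : Y, y + y = 0) (χ : AddChar Y ℂ) :
    ∃ f : Y →+ ZMod 2, ∀ y, χ y = ((sgn (f y) : ℝ) : ℂ) := by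
  classical
  have hpm : ∀ y, χ y = 1 ∨ χ y = -1 := by
    intro y
    have : χ y * χ y = 1 := by rw [← AddChar.map_add_eq_mul, h2, AddChar.map_zero_eq_one]
    exact mul_self_eq_one_iff.1 this
  have hne : (1 : ℂ) ≠ -1 := by norm_num
  have h1ne : (1 : ZMod 2) ≠ 0 := by decide
  refine ⟨{ toFun := fun y => if χ y = 1 then 0 else 1, map_zero' := by simp,
            map_add' := ?_ }, ?_⟩
  · intro x y
    rw [AddChar.map_add_eq_mul]
    rcases hpm x with hx | hx <;> rcases hpm y with hy | hy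
    · simp [hx, hy]
    · simp [hx, hy, hne.symm]
    · simp [hx, hy, hne.symm]
    · have : (1 + 1 : ZMod 2) = 0 := by decide
      simp [hx, hy, hne.symm, this]
  · intro y
    rcases hpm y with hy | hy
    · simp [hy, sgn_zero']
    · simp [hy, hne.symm, sgn_one']

lemma spread_of_charBd [Nonempty κ] (h2 : ∀ y : Y, y + y = 0) {v : κ → Y} {lam : ℝ}
    (hv : CharBd v lam) : Spread v lam := by
  intro χ hχ
  obtain ⟨f, hf⟩ := exists_hom h2 χ
  have hf0 : f ≠ 0 := by
    rintro rfl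
    apply hχ
    ext y
    rw [hf y]
    simp [sgn_zero']
  have h := hv f hf0
  have h1 : ∑ i, χ (v i) = ((∑ i, sgn (f (v i)) : ℝ) : ℂ) := by
    rw [Complex.ofReal_sum]
    exact Finset.sum_congr rfl fun i _ => hf _
  rw [h1, Complex.norm_real, Real.norm_eq_abs]
  rw [Fintype.expect_eq_sum_div_card, abs_div, Nat.abs_cast,
    div_le_iff₀ (by exact_mod_cast Fintype.card_pos)] at h
  exact h

/-- Correlations along a family with small characters. -/
theorem corr [Nonempty κ] (h2 : ∀ y : Y, y + y = 0) {v : κ → Y} {lam : ℝ} (hlam : 0 ≤ lam)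
    (hv : CharBd v lam) (g : Y → ℝ) :
    |(𝔼 y : Y, 𝔼 j : κ, g y * g (y + v j)) - (𝔼 y : Y, g y) ^ 2| ≤
      lam * 𝔼 y : Y, g y ^ 2 := by
  have h := core g v hlam (spread_of_charBd h2 hv)
  have hY : (0 : ℝ) < Fintype.card Y := by
    exact_mod_cast Fintype.card_pos_iff.2 ⟨(0 : Y)⟩
  have hK : (0 : ℝ) < Fintype.card κ := by exact_mod_cast Fintype.card_pos
  have e1 : (𝔼 y : Y, 𝔼 j : κ, g y * g (y + v j)) =
      (∑ y, ∑ i, g y * g (y + v i)) / (Fintype.card κ * Fintype.card Y) := by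
    simp_rw [Fintype.expect_eq_sum_div_card]
    rw [← Finset.sum_div, div_div]
  rw [e1, Fintype.expect_eq_sum_div_card (fun y => g y),
    Fintype.expect_eq_sum_div_card (fun y => g y ^ 2)]
  have e2 : (∑ y, ∑ i, g y * g (y + v i)) / (Fintype.card κ * Fintype.card Y) -
      ((∑ y, g y) / Fintype.card Y) ^ 2 =
      ((Fintype.card Y : ℝ) * (∑ y, ∑ i, g y * g (y + v i)) -
        (Fintype.card κ : ℝ) * (∑ y, g y) ^ 2) / (Fintype.card κ * Fintype.card Y ^ 2) := by
    field_simp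
  rw [e2, abs_div, abs_of_pos (by positivity : (0 : ℝ) < Fintype.card κ * Fintype.card Y ^ 2),
    div_le_iff₀ (by positivity)]
  refine h.trans (le_of_eq ?_)
  field_simp

end two

end Vale.Agent.P318.H790
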