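import Vale.Agent.P318.H790.Corr

/-!
# P318 line S: pair mixing of the tests T0 and READ, and the quadratic counts
-/

namespace Vale.Agent.P318.H790

open Finset Vale.Agent.P318.S
open scoped BigOperators

/-! ### pair mixing and the cut count -/

section quad

variable {Y E Ω W : Type*} [Fintype Y] [Fintype E] [Fintype Ω] [Fintype W]

/-- A random tuple of positions `pos ω : W → Y × E` is pairwise `lam`-mixing.  (The error term
vanishes for functions that are balanced in every fibre.) -/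
def PairMix (pos : Ω → W → Y × E) (lam : ℝ) : Prop :=
  ∀ p p' : W, p ≠ p' → ∀ g : Y → E → ℝ,
    |(𝔼 ω : Ω, g (pos ω p).1 (pos ω p).2 * g (pos ω p').1 (pos ω p').2) -
        (𝔼 y : Y, 𝔼 c : E, g y c) ^ 2| ≤ lam * 𝔼 y : Y, (𝔼 c : E, g y c) ^ 2

/-- `k (w - k)`, where `k` is the number of ones among the `w` bits `a`. -/
def cutv (a : W → ZMod 2) : ℝ := (∑ p, ind (a p)) * ((Fintype.card W : ℝ) - ∑ p, ind (a p))

lemma cutv_eq [DecidableEq W] (a : W → ZMod 2) :
    cutv a = ((Fintype.card W : ℝ) * (Fintype.card W - 1) -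
      ∑ p, ∑ p' ∈ univ.erase p, sgn (a p) * sgn (a p')) / 4 := by
  have h1 : ∑ p, ind (a p) = ((Fintype.card W : ℝ) - ∑ p, sgn (a p)) / 2 := by
    simp_rw [ind_eq']
    rw [← Finset.sum_div, Finset.sum_sub_distrib]
    simp
  have h2 : ∑ p, ∑ p' ∈ univ.erase p, sgn (a p) * sgn (a p') =
      (∑ p, sgn (a p)) ^ 2 - Fintype.card W := by
    have : ∀ p, ∑ p' ∈ univ.erase p, sgn (a p) * sgn (a p') =
        (∑ p', sgn (a p) * sgn (a p')) - 1 := by
      intro p
      rw [← Finset.add_sum_erase univ (fun p' => sgn (a p) * sgn (a p')) (mem_univ p), sgn_sq']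
      ring
    simp_rw [this]
    rw [Finset.sum_sub_distrib, pow_two, Finset.sum_mul_sum]
    simp
  rw [cutv, h2, h1]
  ring

variable [Nonempty Ω]

/-- The expected cut count of a pairwise mixing test. -/
theorem PairMix.cut_ge {pos : Ω → W → Y × E} {lam : ℝ} (hlam : 0 ≤ lam) (h : PairMix pos lam)
    (σ : Y → E → ZMod 2) :
    (Fintype.card W : ℝ) * (Fintype.card W - 1) / 4 *
        (1 - (𝔼 y : Y, 𝔼 c : E, sgn (σ y c)) ^ 2 - lam) ≤
      𝔼 ω : Ω, cutv fun p => σ (pos ω p).1 (pos ω p).2 := by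
  classical
  set g : Y → E → ℝ := fun y c => sgn (σ y c) with hg
  have hmu : 𝔼 y : Y, (𝔼 c : E, g y c) ^ 2 ≤ 1 := by
    rcases isEmpty_or_nonempty Y with hY | hY
    · simp
    · rw [← Fintype.expect_const (ι := Y) (1 : ℝ)]
      refine Finset.expect_le_expect fun y _ => ?_
      rcases isEmpty_or_nonempty E with hE | hE
      · simp
      · have h1 : |𝔼 c : E, g y c| ≤ 1 := by
          refine (Finset.abs_expect_le _ _).trans ?_
          rw [← Fintype.expect_const (ι := E) (1 : ℝ)]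
          exact Finset.expect_le_expect fun c _ => (abs_sgn' _).le
        rw [← sq_abs]
        exact pow_le_one₀ (abs_nonneg _) h1
  have hsum : 𝔼 ω : Ω, (∑ p, ∑ p' ∈ univ.erase p,
      g (pos ω p).1 (pos ω p).2 * g (pos ω p').1 (pos ω p').2) ≤
      (Fintype.card W : ℝ) * (Fintype.card W - 1) *
        ((𝔼 y : Y, 𝔼 c : E, g y c) ^ 2 + lam) := by
    rw [Finset.expect_sum_comm]
    have h1 : ∀ p ∈ (univ : Finset W), 𝔼 ω : Ω, (∑ p' ∈ univ.erase p,
        g (pos ω p).1 (pos ω p).2 * g (pos ω p').1 (pos ω p').2) ≤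
        ((Fintype.card W : ℝ) - 1) * ((𝔼 y : Y, 𝔼 c : E, g y c) ^ 2 + lam) := by
      intro p _
      rw [Finset.expect_sum_comm]
      have h2 : ∀ p' ∈ univ.erase p, 𝔼 ω : Ω,
          g (pos ω p).1 (pos ω p).2 * g (pos ω p').1 (pos ω p').2 ≤
          ((𝔼 y : Y, 𝔼 c : E, g y c) ^ 2 + lam) := by
        intro p' hp'
        have := h p p' (Finset.ne_of_mem_erase hp').symm g
        have h3 := (abs_le.1 this).2
        have h4 : lam * 𝔼 y : Y, (𝔼 c : E, g y c) ^ 2 ≤ lam * 1 :=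
          mul_le_mul_of_nonneg_left hmu hlam
        linarith
      refine (Finset.sum_le_sum h2).trans (le_of_eq ?_)
      rw [Finset.sum_const, Finset.card_erase_of_mem (mem_univ p), Finset.card_univ, nsmul_eq_mul,
        Nat.cast_sub (Fintype.card_pos_iff.2 ⟨p⟩)]
      simp
    refine (Finset.sum_le_sum h1).trans (le_of_eq ?_)
    rw [Finset.sum_const, Finset.card_univ, nsmul_eq_mul]
    ring
  simp_rw [cutv_eq]
  rw [← Finset.expect_div, Finset.expect_sub_distrib, Fintype.expect_const]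
  have : 𝔼 ω : Ω, (∑ p, ∑ p' ∈ univ.erase p,
      sgn (σ (pos ω p).1 (pos ω p).2) * sgn (σ (pos ω p').1 (pos ω p').2)) =
      𝔼 ω : Ω, (∑ p, ∑ p' ∈ univ.erase p,
      g (pos ω p).1 (pos ω p).2 * g (pos ω p').1 (pos ω p').2) := rfl
  rw [this]
  linarith

/-- For a word that is balanced in every fibre the expected cut count is exact. -/
theorem PairMix.cut_eq {pos : Ω → W → Y × E} {lam : ℝ} (h : PairMix pos lam)
    (σ : Y → E → ZMod 2) (hσ : ∀ y, 𝔼 c : E, sgn (σ y c) = 0) :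
    𝔼 ω : Ω, cutv (fun p => σ (pos ω p).1 (pos ω p).2) =
      (Fintype.card W : ℝ) * (Fintype.card W - 1) / 4 := by
  classical
  set g : Y → E → ℝ := fun y c => sgn (σ y c) with hg
  have hsum : 𝔼 ω : Ω, (∑ p, ∑ p' ∈ univ.erase p,
      g (pos ω p).1 (pos ω p).2 * g (pos ω p').1 (pos ω p').2) = 0 := by
    rw [Finset.expect_sum_comm]
    refine Finset.sum_eq_zero fun p _ => ?_
    rw [Finset.expect_sum_comm]
    refine Finset.sum_eq_zero fun p' hp' => ?_
    have := h p p' (Finset.ne_of_mem_erase hp').symm g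
    have hz : ∀ y, 𝔼 c : E, g y c = 0 := hσ
    simp_rw [hz] at this
    simpa using this
  simp_rw [cutv_eq]
  rw [← Finset.expect_div, Finset.expect_sub_distrib, Fintype.expect_const]
  have : 𝔼 ω : Ω, (∑ p, ∑ p' ∈ univ.erase p,
      sgn (σ (pos ω p).1 (pos ω p).2) * sgn (σ (pos ω p').1 (pos ω p').2)) =
      𝔼 ω : Ω, (∑ p, ∑ p' ∈ univ.erase p,
      g (pos ω p).1 (pos ω p).2 * g (pos ω p').1 (pos ω p').2) := rfl
  rw [this, hsum]
  ring

end quad

end Vale.Agent.P318.H790
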