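import Vale.Agent.P318.H790.Tests

/-!
# P318 line S: pair mixing of T0, READ, double READ
-/

namespace Vale.Agent.P318.H790

open Finset Vale.Agent.P318.S
open scoped BigOperators

section t0

variable {F Y E ι : Type*} [Field F] [Fintype F] [CharP F 2] [AddCommGroup Y] [Module F Y]
  [Fintype Y] [AddCommGroup E] [Module F E] [Fintype E] [Fintype ι] [Nonempty ι]

omit [Fintype F] [Fintype Y] in
variable (F) in
include F in
lemma add_self_zero (y : Y) : y + y = 0 := by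
  have : (1 + 1 : F) • y = 0 := by rw [CharTwo.add_self_eq_zero, zero_smul]
  simpa [add_smul] using this

/-- Correlations, averaged over the family first. -/
lemma corr' {κ : Type*} [Fintype κ] [Nonempty κ] (F : Type*) [Field F] [CharP F 2] [Module F Y]
    {v : κ → Y} {lam : ℝ} (hlam : 0 ≤ lam) (hv : CharBd v lam) (g : Y → ℝ) :
    |(𝔼 j : κ, 𝔼 y : Y, g y * g (y + v j)) - (𝔼 y : Y, g y) ^ 2| ≤
      lam * 𝔼 y : Y, g y ^ 2 := by
  rw [Finset.expect_comm]
  exact corr (add_self_zero F) hlam hv g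

/-- Two positions `y + a`, `y + b` for uniform `y`. -/
lemma expect_two (g : Y → ℝ) (F : Type*) [Field F] [CharP F 2] [Module F Y] (a b : Y) :
    𝔼 y : Y, g (y + a) * g (y + b) = 𝔼 y : Y, g y * g (y + (a + b)) := by
  rw [← expect_shift (fun y => g y * g (y + (a + b))) a]
  refine Finset.expect_congr rfl fun y _ => ?_
  have : y + a + (a + b) = y + b := by
    rw [add_assoc, ← add_assoc a a b, add_self_zero F a, zero_add]
  rw [this]

/-- The seeds of the test T0. -/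
abbrev Seed0 (ι Y E : Type*) (D : ℕ) := ι × Y × (Fin (D + 1) → E)

/-- The positions of the test T0. -/
def pos0 (F : Type*) [Field F] [Module F Y] [Module F E] {D : ℕ} (r : ι → Y)
    (x : Seed0 ι Y E D) (u : F) : Y × E := (x.2.1 + u • r x.1, crv x.2.2 u)

omit [Fintype F] in
theorem pairMix_t0 {D : ℕ} (hD : 1 ≤ D) {r : ι → Y} {lam : ℝ} (hlam : 0 ≤ lam)
    (hb : CharBd r lam) :
    PairMix (Ω := Seed0 ι Y E D) (W := F) (pos0 F r) lam := by
  intro u u' huu g
  set μ : Y → ℝ := fun y => 𝔼 c : E, g y c with hμ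
  have h1 : (𝔼 x : Seed0 ι Y E D, g (pos0 F r x u).1 (pos0 F r x u).2 *
      g (pos0 F r x u').1 (pos0 F r x u').2) =
      𝔼 i : ι, 𝔼 y : Y, μ y * μ (y + (u + u') • r i) := by
    rw [← univ_product_univ, Finset.expect_product]
    refine Finset.expect_congr rfl fun i _ => ?_
    rw [← univ_product_univ, Finset.expect_product]
    have h2 : ∀ y : Y, 𝔼 C : Fin (D + 1) → E, g (pos0 F r (i, y, C) u).1
        (pos0 F r (i, y, C) u).2 * g (pos0 F r (i, y, C) u').1 (pos0 F r (i, y, C) u').2 =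
        μ (y + u • r i) * μ (y + u' • r i) := by
      intro y
      have := expect_indep (crvHom (E := E) (D := D) u) (crvHom (E := E) (D := D) u')
        (fun a b => crv_two hD huu a b) 0 0 (fun c => g (y + u • r i) c)
        (fun c => g (y + u' • r i) c)
      simp only [zero_add] at this
      exact this
    simp_rw [h2]
    rw [expect_two (fun y => μ y) F (u • r i) (u' • r i)]
    simp_rw [add_smul]
  rw [h1]
  have huu' : u + u' ≠ 0 := fun h => huu (CharTwo.add_eq_zero.1 h)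
  exact corr' F hlam (charBd_smul hb huu') μ

end t0

section read

variable {F Y ι ρ : Type*} [Field F] [Fintype F] [CharP F 2] [AddCommGroup Y] [Module F Y]
  [Fintype Y] [Fintype ι] [Nonempty ι] [Fintype ρ] [DecidableEq ρ]

/-- The seeds of a READ. -/
abbrev SeedR (F ι ρ : Type*) (D : ℕ) :=
  (Fin 2 → ι) × (Fin 2 → Fin D → ρ → F) × (ρ → F)

/-- Value part of a READ position as an additive map of the random coefficients. -/
def rdHom {D : ℕ} (p : Fin 2 × {u : F // u ≠ 0}) :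
    ((Fin 2 → Fin D → ρ → F) × (ρ → F)) →+ (ρ → F) where
  toFun x := crv (Fin.cons x.2 (x.1 p.1) : Fin (D + 1) → ρ → F) (p.2 : F)
  map_zero' := by simp [crv_cons]
  map_add' x y := by
    simp only [crv_cons, Prod.fst_add, Prod.snd_add, Pi.add_apply, smul_add,
      Finset.sum_add_distrib]
    abel

omit [Fintype F] [CharP F 2] [Fintype ρ] [DecidableEq ρ] in
lemma rdHom_two {D : ℕ} (hD : 1 ≤ D) {p p' : Fin 2 × {u : F // u ≠ 0}} (h : p ≠ p')
    (a b : ρ → F) :
    ∃ x : (Fin 2 → Fin D → ρ → F) × (ρ → F), rdHom p x = a ∧ rdHom p' x = b := by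
  by_cases hk : p.1 = p'.1
  · have hu : (p.2 : F) ≠ (p'.2 : F) := by
      intro hu
      exact h (Prod.ext hk (Subtype.ext hu))
    obtain ⟨C, h1, h2⟩ := crv_two hD hu a b
    refine ⟨(fun _ => fun j => C j.succ, C 0), ?_, ?_⟩
    · change crv (Fin.cons (C 0) (fun j => C j.succ) : Fin (D + 1) → ρ → F) (p.2 : F) = a
      rw [show (Fin.cons (C 0) (fun j => C j.succ) : Fin (D + 1) → ρ → F) = C from
        Fin.cons_self_tail C]
      exact h1
    · change crv (Fin.cons (C 0) (fun j => C j.succ) : Fin (D + 1) → ρ → F) (p'.2 : F) = b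
      rw [show (Fin.cons (C 0) (fun j => C j.succ) : Fin (D + 1) → ρ → F) = C from
        Fin.cons_self_tail C]
      exact h2
  · obtain ⟨D, rfl⟩ : ∃ D', D = D' + 1 := ⟨D - 1, by omega⟩
    have hval : ∀ (c : ρ → F) (w : F),
        crv (Fin.cons 0 (Fin.cons c (fun _ => 0)) : Fin (D + 1 + 1) → ρ → F) w = w • c := by
      intro c w
      rw [crv_cons, Fin.sum_univ_succ]
      simp
    refine ⟨(fun k => if k = p.1 then Fin.cons ((p.2 : F)⁻¹ • a) (fun _ => 0) else
      Fin.cons ((p'.2 : F)⁻¹ • b) (fun _ => 0), 0), ?_, ?_⟩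
    · change crv (Fin.cons 0 (if p.1 = p.1 then Fin.cons ((p.2 : F)⁻¹ • a) (fun _ => 0) else
        Fin.cons ((p'.2 : F)⁻¹ • b) (fun _ => 0)) : Fin (D + 1 + 1) → ρ → F) (p.2 : F) = a
      rw [if_pos rfl, hval, smul_smul, mul_inv_cancel₀ p.2.2, one_smul]
    · change crv (Fin.cons 0 (if p'.1 = p.1 then Fin.cons ((p.2 : F)⁻¹ • a) (fun _ => 0) else
        Fin.cons ((p'.2 : F)⁻¹ • b) (fun _ => 0)) : Fin (D + 1 + 1) → ρ → F) (p'.2 : F) = b
      rw [if_neg (Ne.symm hk), hval, smul_smul, mul_inv_cancel₀ p'.2.2, one_smul]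

omit [Fintype F] [CharP F 2] [AddCommGroup Y] [Module F Y] [Fintype Y] [Fintype ι] [Nonempty ι]
  [Fintype ρ] [DecidableEq ρ] in
lemma crv_shift {D : ℕ} (s c : ρ → F) (C : Fin D → ρ → F) (u : F) :
    crv (Fin.cons (s + c) C : Fin (D + 1) → ρ → F) u =
      s + crv (Fin.cons c C : Fin (D + 1) → ρ → F) u := by
  rw [crv_cons, crv_cons, add_assoc]

omit [Fintype F] [CharP F 2] [Fintype Y] [Fintype ι] [Nonempty ι] [Fintype ρ]
  [DecidableEq ρ] in
/-- The position of a READ. -/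
lemma rdPos_snd {D : ℕ} (r : ι → Y) (y : Y) (cst : ρ → F) (i : Fin 2 → ι)
    (x : (Fin 2 → Fin D → ρ → F) × (ρ → F)) (p : Fin 2 × {u : F // u ≠ 0}) :
    (rdPos r y cst i x.1 x.2 p).2 = (if p.1 = 0 then cst else 0) + rdHom p x := by
  by_cases h0 : p.1 = 0
  · simp only [rdPos, h0, if_true]
    rw [crv_shift]
    simp [rdHom, h0]
  · simp only [rdPos, h0, if_false, zero_add]
    rfl

omit [CharP F 2] [Fintype Y] [Fintype ι] [Nonempty ι] in
/-- Averages of two values of a READ, for fixed `y` and directions. -/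
lemma expect_read {D : ℕ} (hD : 1 ≤ D) (r : ι → Y) (y : Y) (cst : ρ → F) (i : Fin 2 → ι)
    {p p' : Fin 2 × {u : F // u ≠ 0}} (h : p ≠ p') (g : Y → (ρ → F) → ℝ) :
    (𝔼 x : (Fin 2 → Fin D → ρ → F) × (ρ → F),
      g (rdPos r y cst i x.1 x.2 p).1 (rdPos r y cst i x.1 x.2 p).2 *
        g (rdPos r y cst i x.1 x.2 p').1 (rdPos r y cst i x.1 x.2 p').2) =
      (𝔼 c : ρ → F, g (y + (p.2 : F) • r (i p.1)) c) *
        𝔼 c : ρ → F, g (y + (p'.2 : F) • r (i p'.1)) c := by
  classical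
  simp_rw [rdPos_snd]
  exact expect_indep (rdHom (ρ := ρ) (D := D) p) (rdHom (ρ := ρ) (D := D) p')
    (fun a b => rdHom_two hD h a b) _ _ (fun c => g (y + (p.2 : F) • r (i p.1)) c)
    (fun c => g (y + (p'.2 : F) • r (i p'.1)) c)

/-- The positions of a READ, with all its seeds. -/
def posR {D : ℕ} {Ω : Type*} (r : ι → Y) (yv : Ω → Y) (cst : Ω → ρ → F)
    (x : Ω × SeedR F ι ρ D) (p : Fin 2 × {u : F // u ≠ 0}) : Y × (ρ → F) :=
  rdPos r (yv x.1) (cst x.1) x.2.1 x.2.2.1 x.2.2.2 p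

theorem pairMix_read {D : ℕ} (hD : 1 ≤ D) {r : ι → Y} {lam : ℝ} (hlam : 0 ≤ lam)
    (hb : CharBd r lam) {Ω : Type*} [Fintype Ω] (yv : Ω → Y)
    (hyv : ∀ g : Y → ℝ, 𝔼 ω, g (yv ω) = 𝔼 y, g y) (cst : Ω → ρ → F) :
    PairMix (Ω := Ω × SeedR F ι ρ D) (posR r yv cst) lam := by
  classical
  intro p p' hpp g
  set μ : Y → ℝ := fun y => 𝔼 c : ρ → F, g y c with hμ
  have h1 : (𝔼 x : Ω × SeedR F ι ρ D, g (posR r yv cst x p).1 (posR r yv cst x p).2 *
      g (posR r yv cst x p').1 (posR r yv cst x p').2) =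
      𝔼 i : Fin 2 → ι, 𝔼 y : Y,
        μ y * μ (y + ((p.2 : F) • r (i p.1) + (p'.2 : F) • r (i p'.1))) := by
    rw [← univ_product_univ, Finset.expect_product]
    have h2 : ∀ ω : Ω, 𝔼 x : SeedR F ι ρ D, g (posR r yv cst (ω, x) p).1
        (posR r yv cst (ω, x) p).2 * g (posR r yv cst (ω, x) p').1
        (posR r yv cst (ω, x) p').2 =
        𝔼 i : Fin 2 → ι, μ (yv ω + (p.2 : F) • r (i p.1)) *
          μ (yv ω + (p'.2 : F) • r (i p'.1)) := by
      intro ω
      rw [← univ_product_univ, Finset.expect_product]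
      refine Finset.expect_congr rfl fun i _ => ?_
      exact expect_read hD r (yv ω) (cst ω) i hpp g
    simp_rw [h2]
    rw [hyv (fun y => 𝔼 i : Fin 2 → ι, μ (y + (p.2 : F) • r (i p.1)) *
          μ (y + (p'.2 : F) • r (i p'.1))), Finset.expect_comm]
    refine Finset.expect_congr rfl fun i _ => ?_
    exact expect_two μ F _ _
  rw [h1]
  exact corr' F hlam (charBd_two hb p.2.2 p'.2.2 (fun h => hpp (Prod.ext h.1 (Subtype.ext h.2)))) μ

/-! ### double READ -/

omit [CharP F 2] [Fintype Y] [Fintype ι] [Nonempty ι] in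
/-- Averages of one value of a READ, for fixed `y` and directions. -/
lemma expect_read_one {D : ℕ} (r : ι → Y) (y : Y) (cst : ρ → F) (i : Fin 2 → ι)
    (p : Fin 2 × {u : F // u ≠ 0}) (g : Y → (ρ → F) → ℝ) :
    (𝔼 x : (Fin 2 → Fin D → ρ → F) × (ρ → F),
      g (rdPos r y cst i x.1 x.2 p).1 (rdPos r y cst i x.1 x.2 p).2) =
      𝔼 c : ρ → F, g (y + (p.2 : F) • r (i p.1)) c := by
  classical
  simp_rw [rdPos_snd]
  have h1 := expect_surj (rdHom (ρ := ρ) (D := D) p) (fun a => ⟨(0, a), by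
    change crv (Fin.cons a (fun _ => 0) : Fin (D + 1) → ρ → F) (p.2 : F) = a
    rw [crv_cons]; simp⟩)
    (fun c => g (y + (p.2 : F) • r (i p.1)) ((if p.1 = 0 then cst else 0) + c))
  have h2 := expect_shift' (fun c => g (y + (p.2 : F) • r (i p.1)) c)
    (if p.1 = 0 then cst else 0)
  rw [← h2, ← h1]
  rfl

/-- The positions of a double READ. -/
def posR2 {D : ℕ} {Ω : Type*} (r : ι → Y) (yv yv' : Ω → Y) (cst cst' : Ω → ρ → F)
    (x : Ω × SeedR F ι ρ D × SeedR F ι ρ D) :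
    (Fin 2 × {u : F // u ≠ 0}) ⊕ (Fin 2 × {u : F // u ≠ 0}) → Y × (ρ → F) :=
  Sum.elim (posR r yv cst (x.1, x.2.1)) (posR r yv' cst' (x.1, x.2.2))

omit [Fintype F] [CharP F 2] [Fintype Y] [Nonempty ι] [Fintype ρ] [DecidableEq ρ] in
lemma charBd_eval [Nonempty ι] {r : ι → Y} {lam : ℝ} (h : CharBd r lam) (k : Fin 2) {u : F}
    (hu : u ≠ 0) : CharBd (fun i : Fin 2 → ι => u • r (i k)) lam := by
  have h1 := charBd_add_right (charBd_smul h hu) (fun _ : ι => (0 : Y))
  have h2 : CharBd (fun p : ι × ι => u • r (if k = 0 then p.1 else p.2)) lam := by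
    by_cases hk : k = 0
    · simpa [hk] using h1
    · have := CharBd.equiv h1 (Equiv.prodComm ι ι)
      simpa [hk] using this
  have h3 := CharBd.equiv h2 (finTwoArrowEquiv ι)
  have e : (fun i : Fin 2 → ι => u • r (i k)) = fun i : Fin 2 → ι =>
      u • r (if k = 0 then (finTwoArrowEquiv ι i).1 else (finTwoArrowEquiv ι i).2) := by
    funext i
    have : i k = if k = 0 then (finTwoArrowEquiv ι i).1 else (finTwoArrowEquiv ι i).2 := by
      fin_cases k <;> simp
    rw [this]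
  rw [e]
  exact h3

/-- Cross pairs of a double READ. -/
lemma cross_pair {D : ℕ} {r : ι → Y} {lam : ℝ} (hlam : 0 ≤ lam)
    (hb : CharBd r lam) {Ω Θ : Type*} [Fintype Ω] [Fintype Θ] [Nonempty Θ] (yv yv' : Ω → Y)
    (z : Θ → Y) (hj : ∀ K : Y → Y → ℝ, 𝔼 ω, K (yv ω) (yv' ω) = 𝔼 y, 𝔼 θ, K y (y + z θ))
    (cst cst' : Ω → ρ → F) (p p' : Fin 2 × {u : F // u ≠ 0}) (g : Y → (ρ → F) → ℝ) :
    |(𝔼 x : Ω × SeedR F ι ρ D × SeedR F ι ρ D,
      g (posR r yv cst (x.1, x.2.1) p).1 (posR r yv cst (x.1, x.2.1) p).2 *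
      g (posR r yv' cst' (x.1, x.2.2) p').1 (posR r yv' cst' (x.1, x.2.2) p').2) -
        (𝔼 y : Y, 𝔼 c : ρ → F, g y c) ^ 2| ≤ lam * 𝔼 y : Y, (𝔼 c : ρ → F, g y c) ^ 2 := by
  classical
  set μ : Y → ℝ := fun y => 𝔼 c : ρ → F, g y c with hμ
  have hone : ∀ (y : Y) (c0 : ρ → F) (p : Fin 2 × {u : F // u ≠ 0}),
      (𝔼 x : SeedR F ι ρ D, g (rdPos r y c0 x.1 x.2.1 x.2.2 p).1
        (rdPos r y c0 x.1 x.2.1 x.2.2 p).2) = 𝔼 i : Fin 2 → ι, μ (y + (p.2 : F) • r (i p.1)) := by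
    intro y c0 p
    rw [← univ_product_univ, Finset.expect_product]
    exact Finset.expect_congr rfl fun i _ => expect_read_one r y c0 i p g
  have h1 : (𝔼 x : Ω × SeedR F ι ρ D × SeedR F ι ρ D,
      g (posR r yv cst (x.1, x.2.1) p).1 (posR r yv cst (x.1, x.2.1) p).2 *
      g (posR r yv' cst' (x.1, x.2.2) p').1 (posR r yv' cst' (x.1, x.2.2) p').2) =
      𝔼 v : (Fin 2 → ι) × (Θ × (Fin 2 → ι)), 𝔼 y : Y,
        μ y * μ (y + ((p.2 : F) • r (v.1 p.1) + (z v.2.1 + (p'.2 : F) • r (v.2.2 p'.1)))) := by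
    rw [← univ_product_univ, Finset.expect_product]
    have h2 : ∀ ω : Ω, 𝔼 x : SeedR F ι ρ D × SeedR F ι ρ D,
        g (posR r yv cst (ω, x.1) p).1 (posR r yv cst (ω, x.1) p).2 *
        g (posR r yv' cst' (ω, x.2) p').1 (posR r yv' cst' (ω, x.2) p').2 =
        (𝔼 i : Fin 2 → ι, μ (yv ω + (p.2 : F) • r (i p.1))) *
          𝔼 i : Fin 2 → ι, μ (yv' ω + (p'.2 : F) • r (i p'.1)) := by
      intro ω
      rw [← hone (yv ω) (cst ω) p, ← hone (yv' ω) (cst' ω) p', Fintype.expect_mul_expect,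
        ← univ_product_univ, Finset.expect_product]
      rfl
    simp_rw [h2]
    rw [hj (fun a b => (𝔼 i : Fin 2 → ι, μ (a + (p.2 : F) • r (i p.1))) *
          𝔼 i : Fin 2 → ι, μ (b + (p'.2 : F) • r (i p'.1)))]
    rw [← univ_product_univ (α := Fin 2 → ι), Finset.expect_product]
    have h3 : ∀ (y : Y) (θ : Θ), (𝔼 i : Fin 2 → ι, μ (y + (p.2 : F) • r (i p.1))) *
          𝔼 i : Fin 2 → ι, μ (y + z θ + (p'.2 : F) • r (i p'.1)) =
        𝔼 i : Fin 2 → ι, 𝔼 i' : Fin 2 → ι, μ (y + (p.2 : F) • r (i p.1)) *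
          μ (y + (z θ + (p'.2 : F) • r (i' p'.1))) := by
      intro y θ
      rw [Fintype.expect_mul_expect]
      simp_rw [add_assoc]
    simp_rw [h3]
    rw [Finset.expect_comm]
    have h4 : ∀ θ : Θ, 𝔼 y : Y, 𝔼 i : Fin 2 → ι, 𝔼 i' : Fin 2 → ι,
        μ (y + (p.2 : F) • r (i p.1)) * μ (y + (z θ + (p'.2 : F) • r (i' p'.1))) =
        𝔼 i : Fin 2 → ι, 𝔼 i' : Fin 2 → ι, 𝔼 y : Y,
        μ y * μ (y + ((p.2 : F) • r (i p.1) + (z θ + (p'.2 : F) • r (i' p'.1)))) := by
      intro θ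
      rw [Finset.expect_comm]
      refine Finset.expect_congr rfl fun i _ => ?_
      rw [Finset.expect_comm]
      refine Finset.expect_congr rfl fun i' _ => ?_
      exact expect_two μ F _ _
    simp_rw [h4]
    rw [Finset.expect_comm]
    refine Finset.expect_congr rfl fun i _ => ?_
    rw [← univ_product_univ, Finset.expect_product]
  rw [h1]
  exact corr' F hlam (charBd_add_right (charBd_eval hb p.1 p.2.2)
    (fun v : Θ × (Fin 2 → ι) => z v.1 + (p'.2 : F) • r (v.2 p'.1))) μ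

theorem pairMix_read2 {D : ℕ} (hD : 1 ≤ D) {r : ι → Y} {lam : ℝ} (hlam : 0 ≤ lam)
    (hb : CharBd r lam) {Ω Θ : Type*} [Fintype Ω] [Fintype Θ] [Nonempty Θ] (yv yv' : Ω → Y)
    (z : Θ → Y) (hj : ∀ K : Y → Y → ℝ, 𝔼 ω, K (yv ω) (yv' ω) = 𝔼 y, 𝔼 θ, K y (y + z θ))
    (cst cst' : Ω → ρ → F) :
    PairMix (Ω := Ω × SeedR F ι ρ D × SeedR F ι ρ D) (posR2 r yv yv' cst cst') lam := by
  classical
  have hyv : ∀ g : Y → ℝ, 𝔼 ω, g (yv ω) = 𝔼 y, g y := by
    intro g
    rw [hj (fun a _ => g a)]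
    exact Finset.expect_congr rfl fun y _ => Fintype.expect_const _
  have hyv' : ∀ g : Y → ℝ, 𝔼 ω, g (yv' ω) = 𝔼 y, g y := by
    intro g
    rw [hj (fun _ b => g b), Finset.expect_comm]
    simp_rw [expect_shift g]
    exact Fintype.expect_const _
  have h1 := pairMix_read hD hlam hb yv hyv cst
  have h2 := pairMix_read hD hlam hb yv' hyv' cst'
  intro p p' hpp g
  rcases p with p | p <;> rcases p' with p' | p'
  · have h3 := h1 p p' (fun h => hpp (by rw [h])) g
    have e : (𝔼 x : Ω × SeedR F ι ρ D × SeedR F ι ρ D,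
        g (posR2 r yv yv' cst cst' x (Sum.inl p)).1 (posR2 r yv yv' cst cst' x (Sum.inl p)).2 *
        g (posR2 r yv yv' cst cst' x (Sum.inl p')).1
          (posR2 r yv yv' cst cst' x (Sum.inl p')).2) =
        𝔼 x : Ω × SeedR F ι ρ D, g (posR r yv cst x p).1 (posR r yv cst x p).2 *
          g (posR r yv cst x p').1 (posR r yv cst x p').2 := by
      rw [← univ_product_univ, Finset.expect_product, ← univ_product_univ (α := Ω),
        Finset.expect_product]
      refine Finset.expect_congr rfl fun ω _ => ?_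
      rw [← univ_product_univ, Finset.expect_product]
      refine Finset.expect_congr rfl fun x _ => ?_
      exact Fintype.expect_const (ι := SeedR F ι ρ D) (g (posR r yv cst (ω, x) p).1
        (posR r yv cst (ω, x) p).2 * g (posR r yv cst (ω, x) p').1
        (posR r yv cst (ω, x) p').2)
    rw [e]
    exact h3
  · exact cross_pair hlam hb yv yv' z hj cst cst' p p' g
  · have h3 := cross_pair (D := D) hlam hb yv yv' z hj cst cst' p' p g
    have e : (𝔼 x : Ω × SeedR F ι ρ D × SeedR F ι ρ D,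
        g (posR2 r yv yv' cst cst' x (Sum.inr p)).1 (posR2 r yv yv' cst cst' x (Sum.inr p)).2 *
        g (posR2 r yv yv' cst cst' x (Sum.inl p')).1
          (posR2 r yv yv' cst cst' x (Sum.inl p')).2) =
        (𝔼 x : Ω × SeedR F ι ρ D × SeedR F ι ρ D,
      g (posR r yv cst (x.1, x.2.1) p').1 (posR r yv cst (x.1, x.2.1) p').2 *
      g (posR r yv' cst' (x.1, x.2.2) p).1 (posR r yv' cst' (x.1, x.2.2) p).2) :=
      Finset.expect_congr rfl fun x _ => mul_comm _ _
    rw [e]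
    exact h3
  · have h3 := h2 p p' (fun h => hpp (by rw [h])) g
    have e : (𝔼 x : Ω × SeedR F ι ρ D × SeedR F ι ρ D,
        g (posR2 r yv yv' cst cst' x (Sum.inr p)).1 (posR2 r yv yv' cst cst' x (Sum.inr p)).2 *
        g (posR2 r yv yv' cst cst' x (Sum.inr p')).1
          (posR2 r yv yv' cst cst' x (Sum.inr p')).2) =
        𝔼 x : Ω × SeedR F ι ρ D, g (posR r yv' cst' x p).1 (posR r yv' cst' x p).2 *
          g (posR r yv' cst' x p').1 (posR r yv' cst' x p').2 := by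
      rw [← univ_product_univ, Finset.expect_product, ← univ_product_univ (α := Ω),
        Finset.expect_product]
      refine Finset.expect_congr rfl fun ω _ => ?_
      rw [← univ_product_univ, Finset.expect_product]
      have : ∀ x : SeedR F ι ρ D, 𝔼 y : SeedR F ι ρ D,
          g (posR2 r yv yv' cst cst' (ω, x, y) (Sum.inr p)).1
            (posR2 r yv yv' cst cst' (ω, x, y) (Sum.inr p)).2 *
          g (posR2 r yv yv' cst cst' (ω, x, y) (Sum.inr p')).1
            (posR2 r yv yv' cst cst' (ω, x, y) (Sum.inr p')).2 =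
          𝔼 y : SeedR F ι ρ D, g (posR r yv' cst' (ω, y) p).1 (posR r yv' cst' (ω, y) p).2 *
            g (posR r yv' cst' (ω, y) p').1 (posR r yv' cst' (ω, y) p').2 := fun x => rfl
      simp_rw [this]
      exact Fintype.expect_const _
    rw [e]
    exact h3

end read

end Vale.Agent.P318.H790
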