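import Vale.Agent.P318.H790.Mix

/-!
# P318 line S: the tests T0, READ and double READ are pairwise mixing
-/

namespace Vale.Agent.P318.H790

open Finset Vale.Agent.P318.S
open scoped BigOperators

/-! ### small characters -/

section charbd

variable {F Y ι κ : Type*} [Field F] [AddCommGroup Y] [Module F Y] [Fintype ι] [Fintype κ]

lemma charBd_smul {r : ι → Y} {lam : ℝ} (h : CharBd r lam) {u : F} (hu : u ≠ 0) :
    CharBd (fun i => u • r i) lam := by
  intro f hf
  have h1 := h (f.comp (DistribSMul.toAddMonoidHom Y u)) (by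
    intro h0
    apply hf
    ext y
    have := DFunLike.congr_fun h0 (u⁻¹ • y)
    simpa [smul_smul, mul_inv_cancel₀ hu] using this)
  simpa using h1

omit [Field F] [Module F Y] in
lemma charBd_add_right {r : ι → Y} {lam : ℝ} (h : CharBd r lam) (w : κ → Y) :
    CharBd (fun p : ι × κ => r p.1 + w p.2) lam := by
  intro f hf
  have h1 := h f hf
  have e : 𝔼 p : ι × κ, sgn (f (r p.1 + w p.2)) =
      (𝔼 i : ι, sgn (f (r i))) * 𝔼 k : κ, sgn (f (w k)) := by
    rw [Fintype.expect_mul_expect, ← univ_product_univ, Finset.expect_product]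
    simp [sgn_add']
  rw [e, abs_mul]
  have h2 : |𝔼 k : κ, sgn (f (w k))| ≤ 1 := by
    rcases isEmpty_or_nonempty κ with hκ | hκ
    · simp
    · refine (Finset.abs_expect_le _ _).trans ?_
      rw [← Fintype.expect_const (ι := κ) (1 : ℝ)]
      exact Finset.expect_le_expect fun c _ => (abs_sgn' _).le
  calc |𝔼 i : ι, sgn (f (r i))| * |𝔼 k : κ, sgn (f (w k))|
      ≤ |𝔼 i : ι, sgn (f (r i))| * 1 := mul_le_mul_of_nonneg_left h2 (abs_nonneg _)
    _ ≤ lam := by rw [mul_one]; exact h1

omit [Field F] [Module F Y] [Fintype κ] in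
lemma CharBd.equiv {r : ι → Y} {lam : ℝ} [Fintype κ] (h : CharBd r lam) (e : κ ≃ ι) :
    CharBd (fun k => r (e k)) lam := by
  intro f hf
  have h1 := h f hf
  have : 𝔼 k : κ, sgn (f (r (e k))) = 𝔼 i : ι, sgn (f (r i)) :=
    Fintype.expect_equiv e _ _ fun _ => rfl
  rwa [this]

/-- Two independent directions: the difference of two read points. -/
lemma charBd_two [CharP F 2] {r : ι → Y} {lam : ℝ} (h : CharBd r lam) {k k' : Fin 2}
    {u u' : F} (hu : u ≠ 0) (hu' : u' ≠ 0) (hne : ¬ (k = k' ∧ u = u')) :
    CharBd (fun i : Fin 2 → ι => u • r (i k) + u' • r (i k')) lam := by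
  -- reduce to pairs
  have key : CharBd (fun p : ι × ι => u • r (if k = 0 then p.1 else p.2) +
      u' • r (if k' = 0 then p.1 else p.2)) lam := by
    by_cases hk : k = k'
    · subst hk
      have huu : u + u' ≠ 0 := by
        intro h0
        apply hne
        refine ⟨rfl, ?_⟩
        have := CharTwo.add_eq_zero.1 h0
        exact this
      have h1 := charBd_smul h huu
      have h2 := charBd_add_right h1 (fun _ : ι => (0 : Y))
      have h3 := charBd_add_right h1 (fun _ : ι => (0 : Y))
      by_cases hk0 : k = 0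
      · simp only [hk0, if_true, ← add_smul]
        simpa using h2
      · simp only [hk0, if_false, ← add_smul]
        have h4 := CharBd.equiv h3 (Equiv.prodComm ι ι)
        simpa using h4
    · have h1 := charBd_add_right (charBd_smul h hu) (fun i : ι => u' • r i)
      have h2 := charBd_add_right (charBd_smul h hu') (fun i : ι => u • r i)
      by_cases hk0 : k = 0
      · have hk1 : k' ≠ 0 := by
          rintro rfl; exact hk hk0
        simpa only [hk0, if_true, hk1, if_false] using h1
      · have hk1 : k' = 0 := by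
          omega
        simp only [hk0, if_false, hk1, if_true]
        have h4 := h2
        intro f hf
        have h5 := h4 f hf
        have : 𝔼 p : ι × ι, sgn (f (u • r p.2 + u' • r p.1)) =
            𝔼 p : ι × ι, sgn (f (u' • r p.1 + u • r p.2)) :=
          Finset.expect_congr rfl fun p _ => by rw [add_comm]
        rw [this]
        exact h5
  have h5 := CharBd.equiv key (finTwoArrowEquiv ι)
  have e : (fun i : Fin 2 → ι => u • r (i k) + u' • r (i k')) =
      fun i : Fin 2 → ι => u • r (if k = 0 then (finTwoArrowEquiv ι i).1 else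
        (finTwoArrowEquiv ι i).2) + u' • r (if k' = 0 then (finTwoArrowEquiv ι i).1 else
        (finTwoArrowEquiv ι i).2) := by
    funext i
    have : ∀ k : Fin 2, i k = if k = 0 then (finTwoArrowEquiv ι i).1 else
        (finTwoArrowEquiv ι i).2 := by
      intro k
      fin_cases k <;> simp
    rw [this k, this k']
  rw [e]
  exact h5

end charbd

/-! ### curves -/

section curve

variable {F E : Type*} [Field F] [AddCommGroup E] [Module F E]

/-- Value of a curve as an additive map. -/
def crvHom {D : ℕ} (u : F) : (Fin (D + 1) → E) →+ E where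
  toFun C := crv C u
  map_zero' := by simp [crv]
  map_add' C C' := by simp [crv, Finset.sum_add_distrib]

lemma crv_cons {D : ℕ} (c : E) (C : Fin D → E) (u : F) :
    crv (Fin.cons c C : Fin (D + 1) → E) u = c + ∑ j : Fin D, u ^ ((j : ℕ) + 1) • C j := by
  simp [crv, Fin.sum_univ_succ]

/-- Two values of a curve are jointly surjective. -/
lemma crv_two {D : ℕ} (hD : 1 ≤ D) {u u' : F} (h : u ≠ u') (a b : E) :
    ∃ C : Fin (D + 1) → E, crv C u = a ∧ crv C u' = b := by
  obtain ⟨D, rfl⟩ : ∃ D', D = D' + 1 := ⟨D - 1, by omega⟩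
  have hs : u - u' ≠ 0 := sub_ne_zero.2 h
  set c1 : E := (u - u')⁻¹ • (a - b) with hc1
  set c0 : E := a - u • c1 with hc0
  have hval : ∀ w : F, crv (Fin.cons c0 (Fin.cons c1 (fun _ => 0)) : Fin (D + 1 + 1) → E) w =
      c0 + w • c1 := by
    intro w
    rw [crv_cons, Fin.sum_univ_succ]
    simp
  refine ⟨Fin.cons c0 (Fin.cons c1 (fun _ => 0)), ?_, ?_⟩
  · rw [hval, hc0, sub_add_cancel]
  · rw [hval, hc0]
    have : u • c1 - u' • c1 = a - b := by
      rw [← sub_smul, hc1, smul_smul, mul_inv_cancel₀ hs, one_smul]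
    have h2 : a - u • c1 + u' • c1 = a - (u • c1 - u' • c1) := by abel
    rw [h2, this]; abel

end curve

end Vale.Agent.P318.H790
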